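import Mathlib.LinearAlgebra.Matrix.Determinant.Basic
import Mathlib.Analysis.SpecialFunctions.Exp
import Mathlib.Topology.Instances.Matrix

/-!
The collision lemma: a determinant whose rows are (infinite) combinations of a fixed family of
vectors `e a` only sees the injective choices row ↦ `a`; an injective choice has a large total weight.
-/

namespace Vale.Agent.P021Z.An

open Finset

/-- Multilinear expansion of a determinant along its rows. -/
theorem det_sum_expand {ι A : Type*} [Fintype ι] [DecidableEq ι] (F : Finset A)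
    (lam : ι → A → ℂ) (e : A → ι → ℂ) :
    (Matrix.of fun i c => ∑ a ∈ F, lam i a * e a c).det =
      ∑ φ ∈ Fintype.piFinset (fun _ : ι => F),
        (∏ i, lam i (φ i)) * (Matrix.of fun i c => e (φ i) c).det := by
  have h1 : (Matrix.of fun i c => ∑ a ∈ F, lam i a * e a c) =
      (fun i => ∑ a ∈ F, lam i a • e a : ι → ι → ℂ) := by
    ext i c
    simp [Finset.sum_apply]
  rw [h1]
  have h2 := (Matrix.detRowAlternating (n := ι) (R := ℂ)).toMultilinearMap.map_sum_finset
    (fun i a => lam i a • e a) (fun _ => F)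
  refine h2.trans ?_
  refine Finset.sum_congr rfl fun φ _ => ?_
  have h3 := (Matrix.detRowAlternating (n := ι) (R := ℂ)).toMultilinearMap.map_smul_univ
    (fun i => lam i (φ i)) (fun i => e (φ i))
  exact h3

/-- An injective choice has total weight at least `X (M - N)`. -/
theorem weight_le_of_injective {ι A : Type*} [Fintype ι] (W : A → ℝ) (hW : ∀ a, 0 ≤ W a)
    (X : ℝ) (hX : 0 ≤ X) (N : ℕ) (hN : ∀ F : Finset A, (∀ a ∈ F, W a < X) → F.card ≤ N)
    (φ : ι → A) (hφ : Function.Injective φ) :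
    X * ((Fintype.card ι : ℝ) - N) ≤ ∑ i, W (φ i) := by
  classical
  set S : Finset ι := univ.filter (fun i => W (φ i) < X) with hS
  have hcard : S.card ≤ N := by
    rw [← Finset.card_image_of_injective S hφ]
    refine hN _ fun a ha => ?_
    obtain ⟨i, hi, rfl⟩ := Finset.mem_image.1 ha
    exact (Finset.mem_filter.1 hi).2
  have hsplit : ∑ i, W (φ i) = ∑ i ∈ S, W (φ i) + ∑ i ∈ Sᶜ, W (φ i) :=
    (Finset.sum_add_sum_compl S _).symm
  have h1 : 0 ≤ ∑ i ∈ S, W (φ i) := Finset.sum_nonneg fun i _ => hW _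
  have h2 : (Sᶜ.card : ℝ) * X ≤ ∑ i ∈ Sᶜ, W (φ i) := by
    have := Finset.card_nsmul_le_sum Sᶜ (fun i => W (φ i)) X (fun i hi => by
      have hi' : i ∉ S := Finset.mem_compl.1 hi
      simpa [hS] using hi')
    simpa using this
  have h3 : (Fintype.card ι : ℝ) - N ≤ Sᶜ.card := by
    have h4 : Sᶜ.card + S.card = Fintype.card ι := by
      rw [add_comm]; exact Finset.card_add_card_compl S
    have h5 : (S.card : ℝ) ≤ N := by exact_mod_cast hcard
    have h6 : (Sᶜ.card : ℝ) + S.card = Fintype.card ι := by exact_mod_cast h4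
    linarith
  have h7 : X * ((Fintype.card ι : ℝ) - N) ≤ (Sᶜ.card : ℝ) * X := by
    rw [mul_comm]; exact mul_le_mul_of_nonneg_right h3 hX
  linarith

/-- The collision lemma, finite form. -/
theorem norm_det_sum_le {ι A : Type*} [Fintype ι] [DecidableEq ι] (F : Finset A)
    (lam : ι → A → ℂ) (e : A → ι → ℂ) (L B : ι → ℝ) (hL : ∀ i, 0 ≤ L i) (hB : ∀ c, 0 ≤ B c)
    (τ W : A → ℝ) (hτ0 : ∀ a, 0 ≤ τ a) (S : ℝ) (hτ : ∑ a ∈ F, τ a ≤ S) (hW : ∀ a, 0 ≤ W a)
    (X : ℝ) (hX : 0 ≤ X) (N : ℕ) (hN : ∀ F : Finset A, (∀ a ∈ F, W a < X) → F.card ≤ N)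
    (hb : ∀ i a c, ‖lam i a‖ * ‖e a c‖ ≤ L i * B c * (τ a * Real.exp (-W a))) :
    ‖(Matrix.of fun i c => ∑ a ∈ F, lam i a * e a c).det‖ ≤
      (Fintype.card ι).factorial * (∏ i, L i) * (∏ c, B c) * S ^ Fintype.card ι *
        Real.exp (-(X * ((Fintype.card ι : ℝ) - N))) := by
  classical
  rw [det_sum_expand]
  set E : ℝ := Real.exp (-(X * ((Fintype.card ι : ℝ) - N))) with hE
  set C : ℝ := (Fintype.card ι).factorial * (∏ i, L i) * (∏ c, B c) with hC
  have hC0 : 0 ≤ C := by
    refine mul_nonneg (mul_nonneg (Nat.cast_nonneg _) ?_) ?_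
    · exact Finset.prod_nonneg fun i _ => hL i
    · exact Finset.prod_nonneg fun i _ => hB i
  have hE0 : 0 ≤ E := (Real.exp_pos _).le
  have key : ∀ φ : ι → A, ‖(∏ i, lam i (φ i)) * (Matrix.of fun i c => e (φ i) c).det‖ ≤
      C * E * ∏ i, τ (φ i) := by
    intro φ
    have hτp : 0 ≤ ∏ i, τ (φ i) := Finset.prod_nonneg fun i _ => hτ0 _
    by_cases hφ : Function.Injective φ
    · have hw := weight_le_of_injective W hW X hX N hN φ hφ
      have hexp : ∏ i, Real.exp (-W (φ i)) ≤ E := by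
        rw [← Real.exp_sum, hE, Finset.sum_neg_distrib]
        exact Real.exp_le_exp.2 (by linarith)
      rw [← Matrix.det_transpose, Matrix.det_apply, Finset.mul_sum]
      refine (norm_sum_le _ _).trans ?_
      have hterm : ∀ σ : Equiv.Perm ι, ‖(∏ i, lam i (φ i)) *
          (Equiv.Perm.sign σ • ∏ i, (Matrix.of fun i c => e (φ i) c).transpose (σ i) i)‖ ≤
          (∏ i, L i) * (∏ c, B c) * E * ∏ i, τ (φ i) := by
        intro σ
        have hs : ‖(Equiv.Perm.sign σ • ∏ i, (Matrix.of fun i c => e (φ i) c).transpose (σ i) i : ℂ)‖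
            = ∏ i, ‖e (φ i) (σ i)‖ := by
          rcases Int.units_eq_one_or (Equiv.Perm.sign σ) with h | h <;> simp [h]
        rw [norm_mul, hs, norm_prod, ← Finset.prod_mul_distrib]
        calc ∏ i, ‖lam i (φ i)‖ * ‖e (φ i) (σ i)‖
            ≤ ∏ i, L i * B (σ i) * (τ (φ i) * Real.exp (-W (φ i))) :=
              Finset.prod_le_prod (fun i _ => by positivity) (fun i _ => hb i _ _)
          _ = (∏ i, L i) * (∏ c, B c) * (∏ i, Real.exp (-W (φ i))) * ∏ i, τ (φ i) := by
              rw [Finset.prod_mul_distrib, Finset.prod_mul_distrib, Finset.prod_mul_distrib,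
                Equiv.prod_comp σ B]
              ring
          _ ≤ (∏ i, L i) * (∏ c, B c) * E * ∏ i, τ (φ i) := by
              refine mul_le_mul_of_nonneg_right (mul_le_mul_of_nonneg_left hexp ?_) hτp
              exact mul_nonneg (Finset.prod_nonneg fun i _ => hL i)
                (Finset.prod_nonneg fun i _ => hB i)
      refine (Finset.sum_le_sum fun σ _ => hterm σ).trans ?_
      rw [Finset.sum_const, Finset.card_univ, Fintype.card_perm, nsmul_eq_mul, hC]
      exact le_of_eq (by ring)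
    · have hz : (Matrix.of fun i c => e (φ i) c).det = 0 := by
        simp only [Function.Injective, not_forall] at hφ
        obtain ⟨i, i', h, hne⟩ := hφ
        refine Matrix.det_zero_of_row_eq hne ?_
        ext c
        simp [h]
      rw [hz, mul_zero, norm_zero]
      positivity
  refine (norm_sum_le _ _).trans ?_
  refine (Finset.sum_le_sum fun φ _ => key φ).trans ?_
  rw [← Finset.mul_sum, ← Finset.prod_univ_sum (fun _ : ι => F) (fun _ a => τ a),
    Finset.prod_const, Finset.card_univ]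
  have hpow : (∑ a ∈ F, τ a) ^ Fintype.card ι ≤ S ^ Fintype.card ι :=
    pow_le_pow_left₀ (Finset.sum_nonneg fun a _ => hτ0 a) hτ _
  calc C * E * (∑ a ∈ F, τ a) ^ Fintype.card ι ≤ C * E * S ^ Fintype.card ι :=
        mul_le_mul_of_nonneg_left hpow (mul_nonneg hC0 hE0)
    _ = _ := by ring

/-- The collision lemma. -/
theorem norm_det_le_of_hasSum {ι A : Type*} [Fintype ι] [DecidableEq ι] (D : Matrix ι ι ℂ)
    (lam : ι → A → ℂ) (e : A → ι → ℂ) (hD : ∀ i c, HasSum (fun a => lam i a * e a c) (D i c))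
    (L B : ι → ℝ) (hL : ∀ i, 0 ≤ L i) (hB : ∀ c, 0 ≤ B c)
    (τ W : A → ℝ) (hτ0 : ∀ a, 0 ≤ τ a) (S : ℝ) (hτ : ∀ F : Finset A, ∑ a ∈ F, τ a ≤ S)
    (hW : ∀ a, 0 ≤ W a)
    (X : ℝ) (hX : 0 ≤ X) (N : ℕ) (hN : ∀ F : Finset A, (∀ a ∈ F, W a < X) → F.card ≤ N)
    (hb : ∀ i a c, ‖lam i a‖ * ‖e a c‖ ≤ L i * B c * (τ a * Real.exp (-W a))) :
    ‖D.det‖ ≤ (Fintype.card ι).factorial * (∏ i, L i) * (∏ c, B c) * S ^ Fintype.card ι *
        Real.exp (-(X * ((Fintype.card ι : ℝ) - N))) := by
  have hlim : Filter.Tendsto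
      (fun F : Finset A => (Matrix.of fun i c => ∑ a ∈ F, lam i a * e a c))
      Filter.atTop (nhds D) := by
    refine tendsto_pi_nhds.2 fun i => tendsto_pi_nhds.2 fun c => ?_
    exact hD i c
  have hcont : Continuous fun Mx : Matrix ι ι ℂ => ‖Mx.det‖ :=
    (Continuous.matrix_det continuous_id).norm
  have h2 := (hcont.tendsto D).comp hlim
  refine le_of_tendsto' h2 fun F => ?_
  exact norm_det_sum_le F lam e L B hL hB τ W hτ0 S (hτ F) hW X hX N hN hb

end Vale.Agent.P021Z.An
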