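import Mathlib.RingTheory.RootsOfUnity.Complex
import Mathlib.Analysis.SpecialFunctions.Exponential
import Mathlib.Analysis.SpecialFunctions.Exp
import Mathlib.Algebra.Polynomial.Eval.Degree
import Mathlib.Analysis.SpecificLimits.Basic

/-!
Expansion lemmas for the analytic bound: coefficients as averages over a circle, the expansion of
`exp (h z) * ∏ choose (α k) (β k) * (z + x k) ^ (α k - β k)` in powers of `x` and `z`.
-/

namespace Vale.Agent.P021Z.An

open Finset Polynomial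

/-- A coefficient of a polynomial is an average of values on a circle. -/
theorem exists_circle_average (N : ℕ) (ρ : ℝ) (hρ : 0 < ρ) :
    ∃ t : ℕ → ℂ, (∀ k, ‖t k‖ = ρ) ∧ ∀ (s : ℕ) (p : ℂ[X]), s < N → p.natDegree < N →
      p.coeff s = ∑ k ∈ range N, ((N : ℂ)⁻¹ * (t k ^ s)⁻¹) * p.eval (t k) := by
  rcases Nat.eq_zero_or_pos N with rfl | hN
  · exact ⟨fun _ => ρ, fun _ => by simp [hρ.le], fun s p hs => absurd hs (Nat.not_lt_zero _)⟩
  have hζ := Complex.isPrimitiveRoot_exp N hN.ne'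
  set ζ : ℂ := Complex.exp (2 * Real.pi * Complex.I / N) with hζdef
  have hζn : ‖ζ‖ = 1 := hζ.norm'_eq_one hN.ne'
  have hζ0 : ζ ≠ 0 := hζ.ne_zero hN.ne'
  have hρ0 : (ρ : ℂ) ≠ 0 := by exact_mod_cast hρ.ne'
  have hN0 : (N : ℂ) ≠ 0 := by exact_mod_cast hN.ne'
  refine ⟨fun k => ρ * ζ ^ k, fun k => by simp [hζn, hρ.le], fun s p hs hp => ?_⟩
  have hsum : ∀ n ∈ range N, ∑ k ∈ range N, ((N : ℂ)⁻¹ * (((ρ : ℂ) * ζ ^ k) ^ s)⁻¹) *
      (p.coeff n * ((ρ : ℂ) * ζ ^ k) ^ n) = if n = s then p.coeff s else 0 := by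
    intro n hn
    have hn' : n < N := Finset.mem_range.1 hn
    have hterm : ∀ k, ((N : ℂ)⁻¹ * (((ρ : ℂ) * ζ ^ k) ^ s)⁻¹) *
        (p.coeff n * ((ρ : ℂ) * ζ ^ k) ^ n) =
        ((N : ℂ)⁻¹ * p.coeff n * ((ρ : ℂ) ^ n * ((ρ : ℂ) ^ s)⁻¹)) * (ζ ^ n * (ζ ^ s)⁻¹) ^ k := by
      intro k
      rw [mul_pow, mul_pow, mul_pow, inv_pow, ← pow_mul, ← pow_mul, ← pow_mul, ← pow_mul,
        mul_comm k s, mul_comm k n]
      field_simp
    simp only [hterm]
    rw [← Finset.mul_sum]
    split_ifs with h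
    · subst h
      have h1 : ζ ^ n * (ζ ^ n)⁻¹ = 1 := mul_inv_cancel₀ (pow_ne_zero _ hζ0)
      have h2 : (ρ : ℂ) ^ n * ((ρ : ℂ) ^ n)⁻¹ = 1 := mul_inv_cancel₀ (pow_ne_zero _ hρ0)
      simp only [h1, h2, one_pow, Finset.sum_const, Finset.card_range, nsmul_eq_mul, mul_one]
      field_simp
    · have hne : ζ ^ n * (ζ ^ s)⁻¹ ≠ 1 := by
        intro h1
        apply h
        have h2 : ζ ^ n = ζ ^ s := by
          have := congrArg (· * ζ ^ s) h1
          simpa [mul_assoc, inv_mul_cancel₀ (pow_ne_zero s hζ0)] using this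
        exact hζ.pow_inj hn' hs h2
      have hpow : (ζ ^ n * (ζ ^ s)⁻¹) ^ N = 1 := by
        rw [mul_pow, inv_pow, ← pow_mul, ← pow_mul, mul_comm n N, mul_comm s N, pow_mul, pow_mul,
          hζ.pow_eq_one]
        simp
      rw [geom_sum_eq hne, hpow]
      simp
  calc p.coeff s = ∑ n ∈ range N, if n = s then p.coeff s else 0 := by
        rw [Finset.sum_ite_eq' (range N) s, if_pos (Finset.mem_range.2 hs)]
    _ = ∑ n ∈ range N, ∑ k ∈ range N, ((N : ℂ)⁻¹ * (((ρ : ℂ) * ζ ^ k) ^ s)⁻¹) *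
          (p.coeff n * ((ρ : ℂ) * ζ ^ k) ^ n) := (Finset.sum_congr rfl hsum).symm
    _ = _ := by
        rw [Finset.sum_comm]
        refine Finset.sum_congr rfl fun k _ => ?_
        rw [Polynomial.eval_eq_sum_range' hp, Finset.mul_sum]

theorem hasSum_of_eq {A : Type*} {f g : A → ℂ} {a b : ℂ} (h : HasSum f a) (hf : g = f)
    (ha : b = a) : HasSum g b := by
  subst hf ha
  exact h

/-- `[z^n] (z^d * exp (h z))`. -/
noncomputable def expCoef (h d n : ℕ) : ℝ :=
  if d ≤ n then (h : ℝ) ^ (n - d) / (n - d).factorial else 0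

theorem expCoef_nonneg (h d n : ℕ) : 0 ≤ expCoef h d n := by
  unfold expCoef
  split_ifs <;> positivity

theorem expCoef_le (h d n : ℕ) (R : ℝ) (hR : 0 < R) :
    expCoef h d n ≤ Real.exp (h * R) * R ^ d / R ^ n := by
  unfold expCoef
  split_ifs with hd
  · obtain ⟨k, rfl⟩ := Nat.exists_eq_add_of_le hd
    rw [Nat.add_sub_cancel_left, pow_add]
    have h1 : ((h : ℝ) * R) ^ k / k.factorial ≤ Real.exp (h * R) :=
      Real.pow_div_factorial_le_exp _ (by positivity) k
    rw [mul_pow] at h1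
    have h2 : (h : ℝ) ^ k / k.factorial = ((h : ℝ) ^ k * R ^ k / k.factorial) / R ^ k := by
      field_simp
    have h3 : Real.exp (h * R) * R ^ d / (R ^ d * R ^ k) = Real.exp (h * R) / R ^ k := by
      field_simp
    rw [h2, h3]
    exact div_le_div_of_nonneg_right h1 (by positivity)
  · positivity

theorem hasSum_expCoef (h d : ℕ) (z : ℂ) :
    HasSum (fun n => z ^ n * (expCoef h d n : ℂ)) (z ^ d * Complex.exp (h * z)) := by
  have h1 : HasSum (fun k : ℕ => ((h : ℂ) * z) ^ k / k.factorial) (Complex.exp (h * z)) := by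
    rw [Complex.exp_eq_exp_ℂ]
    exact NormedSpace.expSeries_div_hasSum_exp _
  have h2 := h1.mul_left (z ^ d)
  have hinj : Function.Injective (fun k : ℕ => d + k) := add_right_injective d
  rw [← hinj.hasSum_iff]
  · refine hasSum_of_eq h2 ?_ rfl
    ext k
    simp only [Function.comp, expCoef, Nat.le_add_right, if_true, Nat.add_sub_cancel_left]
    push_cast
    rw [pow_add, mul_pow]
    ring
  · intro n hn
    have : ¬ d ≤ n := by
      intro hd
      obtain ⟨k, rfl⟩ := Nat.exists_eq_add_of_le hd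
      exact hn ⟨k, rfl⟩
    simp [expCoef, this]

theorem sum_choose_choose (a b : ℕ) (x z : ℂ) :
    ∑ g ∈ range (a + 1), ((g.choose b : ℂ) * x ^ (g - b)) * ((a.choose g : ℂ) * z ^ (a - g)) =
      (a.choose b : ℂ) * (z + x) ^ (a - b) := by
  rcases le_or_gt b a with hab | hab
  · obtain ⟨d, rfl⟩ := Nat.exists_eq_add_of_le hab
    rw [Nat.add_sub_cancel_left, add_assoc, Finset.sum_range_add, add_comm z x, add_pow,
      Finset.mul_sum]
    have h0 : ∑ g ∈ range b, ((g.choose b : ℂ) * x ^ (g - b)) *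
        (((b + d).choose g : ℂ) * z ^ (b + d - g)) = 0 := by
      refine Finset.sum_eq_zero fun g hg => ?_
      rw [Nat.choose_eq_zero_of_lt (Finset.mem_range.1 hg)]
      simp
    rw [h0, zero_add]
    refine Finset.sum_congr rfl fun i hi => ?_
    have hi' : i ≤ d := Nat.lt_succ_iff.1 (Finset.mem_range.1 hi)
    have h1 : (b + d).choose (b + i) * (b + i).choose b = (b + d).choose b * d.choose i := by
      have := Nat.choose_mul (n := b + d) (k := b + i) (s := b) (Nat.le_add_right b i)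
      simpa using this
    have h2 : ((b + d).choose (b + i) : ℂ) * ((b + i).choose b : ℂ) =
        ((b + d).choose b : ℂ) * (d.choose i : ℂ) := by exact_mod_cast h1
    rw [Nat.add_sub_cancel_left, Nat.add_sub_add_left]
    linear_combination (x ^ i * z ^ (d - i)) * h2
  · rw [Nat.choose_eq_zero_of_lt hab]
    simp only [Nat.cast_zero, zero_mul]
    refine Finset.sum_eq_zero fun g hg => ?_
    have : g < b := lt_of_le_of_lt (Nat.lt_succ_iff.1 (Finset.mem_range.1 hg)) hab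
    rw [Nat.choose_eq_zero_of_lt this]
    simp

/-- The column vectors: `[x^γ z^n] (exp (h z) * ∏ (z + x k) ^ α k)`. -/
noncomputable def colCoef {m : ℕ} (h : ℕ) (α : Fin m → ℕ) (a : (Fin m → ℕ) × ℕ) : ℝ :=
  (∏ k, ((α k).choose (a.1 k) : ℝ)) * expCoef h (∑ k, (α k - a.1 k)) a.2

theorem hasSum_expand {m : ℕ} (h : ℕ) (α β : Fin m → ℕ) (z : ℂ) (x : Fin m → ℂ) :
    HasSum (fun a : (Fin m → ℕ) × ℕ =>
        ((∏ k, ((a.1 k).choose (β k) : ℂ) * x k ^ (a.1 k - β k)) * z ^ a.2) * (colCoef h α a : ℂ))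
      (Complex.exp (h * z) * ∏ k, ((α k).choose (β k) : ℂ) * (z + x k) ^ (α k - β k)) := by
  classical
  set f : (Fin m → ℕ) × ℕ → ℂ := fun a =>
    ((∏ k, ((a.1 k).choose (β k) : ℂ) * x k ^ (a.1 k - β k)) * z ^ a.2) * (colCoef h α a : ℂ)
    with hf
  set Box : Finset (Fin m → ℕ) := Fintype.piFinset fun k => range (α k + 1) with hBox
  have hγ : ∀ γ ∈ Box, HasSum (fun a : (Fin m → ℕ) × ℕ => if a.1 = γ then f a else 0)
      (Complex.exp (h * z) * ∏ k, (((γ k).choose (β k) : ℂ) * x k ^ (γ k - β k)) *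
        (((α k).choose (γ k) : ℂ) * z ^ (α k - γ k))) := by
    intro γ _
    have hinj : Function.Injective (fun n : ℕ => (γ, n)) := fun a b hab => (Prod.mk.inj hab).2
    rw [← hinj.hasSum_iff]
    · have h1 := (hasSum_expCoef h (∑ k, (α k - γ k)) z).mul_left
        ((∏ k, ((γ k).choose (β k) : ℂ) * x k ^ (γ k - β k)) * ∏ k, ((α k).choose (γ k) : ℂ))
      refine hasSum_of_eq h1 ?_ ?_
      · ext n
        simp only [Function.comp, if_true, hf, colCoef]
        push_cast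
        ring
      · rw [Finset.prod_mul_distrib (f := fun k => ((γ k).choose (β k) : ℂ) * x k ^ (γ k - β k)),
          Finset.prod_mul_distrib (f := fun k => ((α k).choose (γ k) : ℂ)),
          Finset.prod_pow_eq_pow_sum]
        ring
    · rintro ⟨γ', n⟩ ha
      have : γ' ≠ γ := by
        rintro rfl
        exact ha ⟨n, rfl⟩
      simp [this]
  have hs := hasSum_sum hγ
  refine hasSum_of_eq hs ?_ ?_
  · ext a
    rw [Finset.sum_ite_eq]
    split_ifs with ha
    · rfl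
    · have : ∃ k, α k < a.1 k := by
        by_contra hcon
        push Not at hcon
        exact ha (Fintype.mem_piFinset.2 fun k => Finset.mem_range.2 (Nat.lt_succ_of_le (hcon k)))
      obtain ⟨k, hk⟩ := this
      have h0 : (∏ k, ((α k).choose (a.1 k) : ℝ)) = 0 :=
        Finset.prod_eq_zero (Finset.mem_univ k) (by rw [Nat.choose_eq_zero_of_lt hk]; simp)
      simp only [hf, colCoef, h0, zero_mul, Complex.ofReal_zero, mul_zero]
  · rw [← Finset.mul_sum, hBox, ← Finset.prod_univ_sum (fun k => range (α k + 1))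
      (fun k g => ((g.choose (β k) : ℂ) * x k ^ (g - β k)) * (((α k).choose g : ℂ) * z ^ (α k - g)))]
    congr 1
    exact Finset.prod_congr rfl fun k _ => (sum_choose_choose _ _ _ _).symm

/-- The geometric weights have total mass at most `2 ^ (m + 1)`. -/
theorem sum_half_pow_le {m : ℕ} (F : Finset ((Fin m → ℕ) × ℕ)) :
    ∑ a ∈ F, (∏ k, (1 / 2 : ℝ) ^ a.1 k) * (1 / 2 : ℝ) ^ a.2 ≤ 2 ^ (m + 1) := by
  classical
  set D : ℕ := F.sup (fun a => (∑ k, a.1 k) + a.2) + 1 with hD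
  have hsub : F ⊆ (Fintype.piFinset fun _ : Fin m => range D) ×ˢ range D := by
    intro a ha
    have h1 : (∑ k, a.1 k) + a.2 ≤ F.sup (fun a => (∑ k, a.1 k) + a.2) :=
      Finset.le_sup (f := fun a : (Fin m → ℕ) × ℕ => (∑ k, a.1 k) + a.2) ha
    refine Finset.mem_product.2 ⟨Fintype.mem_piFinset.2 fun k => Finset.mem_range.2 ?_,
      Finset.mem_range.2 (by omega)⟩
    have h2 : a.1 k ≤ ∑ k, a.1 k :=
      Finset.single_le_sum (f := fun k => a.1 k) (fun _ _ => Nat.zero_le _) (Finset.mem_univ k)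
    omega
  have hg : ∑ n ∈ range D, (1 / 2 : ℝ) ^ n ≤ 2 := sum_geometric_two_le D
  have hg0 : 0 ≤ ∑ n ∈ range D, (1 / 2 : ℝ) ^ n := Finset.sum_nonneg fun _ _ => by positivity
  refine (Finset.sum_le_sum_of_subset_of_nonneg hsub fun a _ _ => by positivity).trans ?_
  rw [Finset.sum_product' (f := fun (γ : Fin m → ℕ) (n : ℕ) =>
    (∏ k, (1 / 2 : ℝ) ^ γ k) * (1 / 2 : ℝ) ^ n), ← Finset.sum_mul_sum,
    ← Finset.prod_univ_sum (fun _ : Fin m => range D) (fun _ g => (1 / 2 : ℝ) ^ g),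
    Finset.prod_const, Finset.card_univ, Fintype.card_fin, pow_succ]
  exact mul_le_mul (pow_le_pow_left₀ hg0 hg m) hg hg0 (by positivity)

end Vale.Agent.P021Z.An
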