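import Mathlib.Analysis.SpecialFunctions.Complex.LogBounds
import Vale.Agent.P021Z.An.Collision
import Vale.Agent.P021Z.An.Expand

/-!
The analytic upper bound for the interpolation determinant.
-/

namespace Vale.Agent.P021Z.An

open Finset Polynomial

theorem choose_mul_pow_le (g b : ℕ) (y δ : ℝ) (hδ0 : 0 ≤ δ) (hδ : δ ≤ Real.exp (-y)) :
    (g.choose b : ℝ) * δ ^ (g - b) ≤ 2 ^ g * (Real.exp (y * b) * Real.exp (-(y * g))) := by
  rcases le_or_gt b g with hbg | hbg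
  · obtain ⟨d, rfl⟩ := Nat.exists_eq_add_of_le hbg
    rw [Nat.add_sub_cancel_left]
    have h1 : ((b + d).choose b : ℝ) ≤ 2 ^ (b + d) := by
      exact_mod_cast Nat.choose_le_two_pow (b + d) b
    have h2 : δ ^ d ≤ Real.exp (y * b) * Real.exp (-(y * ((b + d : ℕ) : ℝ))) := by
      rw [← Real.exp_add]
      refine (pow_le_pow_left₀ hδ0 hδ d).trans (le_of_eq ?_)
      rw [← Real.exp_nat_mul]
      congr 1
      push_cast
      ring
    exact mul_le_mul h1 h2 (by positivity) (by positivity)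
  · rw [Nat.choose_eq_zero_of_lt hbg]
    simp only [Nat.cast_zero, zero_mul]
    positivity

theorem two_pow_mul_choose_le (a g : ℕ) :
    (2 : ℝ) ^ g * (a.choose g : ℝ) ≤ 8 ^ a * (1 / 2 : ℝ) ^ g := by
  rcases le_or_gt g a with hga | hga
  · have h1 : (a.choose g : ℝ) ≤ 2 ^ a := by exact_mod_cast Nat.choose_le_two_pow a g
    have h2 : (4 : ℝ) ^ g ≤ 4 ^ a := pow_le_pow_right₀ (by norm_num) hga
    have h3 : (2 : ℝ) ^ g = 4 ^ g * (1 / 2 : ℝ) ^ g := by
      rw [← mul_pow]; norm_num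
    have h4 : (8 : ℝ) ^ a = 4 ^ a * 2 ^ a := by
      rw [← mul_pow]; norm_num
    rw [h3, h4]
    calc (4 : ℝ) ^ g * (1 / 2 : ℝ) ^ g * (a.choose g : ℝ)
        = (4 ^ g * (a.choose g : ℝ)) * (1 / 2 : ℝ) ^ g := by ring
      _ ≤ (4 ^ a * 2 ^ a) * (1 / 2 : ℝ) ^ g :=
        mul_le_mul_of_nonneg_right (mul_le_mul h2 h1 (by positivity) (by positivity))
          (by positivity)
  · rw [Nat.choose_eq_zero_of_lt hga]
    simp only [Nat.cast_zero, mul_zero]
    positivity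

/-- Bound for the product of a row coefficient and a column coefficient. -/
theorem row_col_le {m : ℕ} (h : ℕ) (α β : Fin m → ℕ) (y : Fin m → ℝ) (κ r₀ R : ℝ)
    (hr₀ : 0 ≤ r₀) (hR : 1 ≤ R) (hRr : 2 * r₀ * Real.exp κ ≤ R) (a : (Fin m → ℕ) × ℕ) :
    ((∏ k, ((a.1 k).choose (β k) : ℝ) * Real.exp (-y k) ^ (a.1 k - β k)) * r₀ ^ a.2) *
        colCoef h α a ≤
      Real.exp (∑ k, y k * β k) * (Real.exp (h * R) * (8 * R) ^ (∑ k, α k)) *
        (((∏ k, (1 / 2 : ℝ) ^ a.1 k) * (1 / 2 : ℝ) ^ a.2) *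
          Real.exp (-((∑ k, y k * a.1 k) + κ * a.2))) := by
  obtain ⟨γ, n⟩ := a
  have hR0 : 0 < R := by linarith
  simp only [colCoef]
  have h1 : ∏ k, ((γ k).choose (β k) : ℝ) * Real.exp (-y k) ^ (γ k - β k) ≤
      ∏ k, 2 ^ γ k * (Real.exp (y k * β k) * Real.exp (-(y k * γ k))) :=
    Finset.prod_le_prod (fun k _ => by positivity)
      (fun k _ => choose_mul_pow_le _ _ _ _ (Real.exp_pos _).le le_rfl)
  have h2 : expCoef h (∑ k, (α k - γ k)) n ≤ Real.exp (h * R) * R ^ (∑ k, α k) / R ^ n := by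
    refine (expCoef_le _ _ _ R hR0).trans ?_
    refine div_le_div_of_nonneg_right (mul_le_mul_of_nonneg_left ?_ (Real.exp_pos _).le)
      (by positivity)
    exact pow_le_pow_right₀ hR (Finset.sum_le_sum fun k _ => Nat.sub_le _ _)
  have h3 : r₀ ^ n / R ^ n ≤ (1 / 2 : ℝ) ^ n * Real.exp (-(κ * n)) := by
    rw [← div_pow, show -(κ * n) = (n : ℝ) * (-κ) by ring, Real.exp_nat_mul, ← mul_pow]
    refine pow_le_pow_left₀ (by positivity) ?_ n
    rw [div_le_iff₀ hR0, Real.exp_neg]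
    have hκ : 0 < Real.exp κ := Real.exp_pos κ
    calc r₀ = 1 / 2 * (Real.exp κ)⁻¹ * (2 * r₀ * Real.exp κ) := by field_simp
      _ ≤ 1 / 2 * (Real.exp κ)⁻¹ * R := mul_le_mul_of_nonneg_left hRr (by positivity)
  have h4 : ∏ k, (2 : ℝ) ^ γ k * ((α k).choose (γ k) : ℝ) ≤ ∏ k, 8 ^ α k * (1 / 2 : ℝ) ^ γ k :=
    Finset.prod_le_prod (fun k _ => by positivity) (fun k _ => two_pow_mul_choose_le _ _)
  have hc0 : 0 ≤ ∏ k, ((α k).choose (γ k) : ℝ) := Finset.prod_nonneg fun k _ => by positivity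
  have he0 := expCoef_nonneg h (∑ k, (α k - γ k)) n
  calc ((∏ k, ((γ k).choose (β k) : ℝ) * Real.exp (-y k) ^ (γ k - β k)) * r₀ ^ n) *
        ((∏ k, ((α k).choose (γ k) : ℝ)) * expCoef h (∑ k, (α k - γ k)) n)
      ≤ ((∏ k, 2 ^ γ k * (Real.exp (y k * β k) * Real.exp (-(y k * γ k)))) * r₀ ^ n) *
        ((∏ k, ((α k).choose (γ k) : ℝ)) * (Real.exp (h * R) * R ^ (∑ k, α k) / R ^ n)) := by
        refine mul_le_mul (mul_le_mul_of_nonneg_right h1 (by positivity))
          (mul_le_mul_of_nonneg_left h2 hc0) (mul_nonneg hc0 he0) ?_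
        exact mul_nonneg (Finset.prod_nonneg fun k _ => by positivity) (by positivity)
    _ = (Real.exp (∑ k, y k * β k) * Real.exp (-(∑ k, y k * γ k)) * Real.exp (h * R) *
          R ^ (∑ k, α k)) *
          ((∏ k, (2 : ℝ) ^ γ k * ((α k).choose (γ k) : ℝ)) * (r₀ ^ n / R ^ n)) := by
        rw [← Finset.sum_neg_distrib, Real.exp_sum, Real.exp_sum, Finset.prod_mul_distrib,
          Finset.prod_mul_distrib, Finset.prod_mul_distrib]
        ring
    _ ≤ (Real.exp (∑ k, y k * β k) * Real.exp (-(∑ k, y k * γ k)) * Real.exp (h * R) *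
          R ^ (∑ k, α k)) *
          ((∏ k, 8 ^ α k * (1 / 2 : ℝ) ^ γ k) * ((1 / 2 : ℝ) ^ n * Real.exp (-(κ * n)))) := by
        refine mul_le_mul_of_nonneg_left ?_ (by positivity)
        exact mul_le_mul h4 h3 (by positivity) (Finset.prod_nonneg fun k _ => by positivity)
    _ = _ := by
        rw [Finset.prod_mul_distrib, Finset.prod_pow_eq_pow_sum (f := α), mul_pow, neg_add,
          Real.exp_add]
        ring

/-- The analytic upper bound, with one rate `y k` for each transverse variable. -/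
theorem det_bound' {ι : Type*} [Fintype ι] [DecidableEq ι] {m : ℕ} (Q : ι → Fin m → ℂ[X])
    (j : ι → ℤ) (s h : ι → ℕ) (α β : ι → Fin m → ℕ) (y : Fin m → ℝ) (ρ κ r₀ R Z : ℝ) (N : ℕ)
    (hρ : 0 < ρ) (hρ' : ρ ≤ 1 / 2) (hy : ∀ k, 0 ≤ y k) (hκ : 0 ≤ κ) (hZ : 0 ≤ Z) (hR : 1 ≤ R)
    (hj : ∀ i, 2 * Real.pi * |(j i : ℝ)| + 1 ≤ r₀) (hr₀ : 0 ≤ r₀)
    (hRr : 2 * r₀ * Real.exp κ ≤ R)
    (hQ : ∀ i k (t : ℂ), ‖t‖ = ρ →
      ‖(Q i k).eval t - (2 * Real.pi * Complex.I * j i + Complex.log (1 + t))‖ ≤ Real.exp (-y k))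
    (hN : ∀ F : Finset ((Fin m → ℕ) × ℕ),
      (∀ a ∈ F, (∑ k, y k * a.1 k) + κ * a.2 < Z) → F.card ≤ N) :
    ‖(Matrix.of fun i c => ((1 + X) ^ h c *
        ∏ k, C ((α c k).choose (β i k) : ℂ) * Q i k ^ (α c k - β i k)).coeff (s i)).det‖ ≤
      (Fintype.card ι).factorial * (∏ i, (ρ ^ s i)⁻¹ * Real.exp (∑ k, y k * β i k)) *
        (∏ c, Real.exp (h c * R) * (8 * R) ^ (∑ k, α c k)) * (2 ^ (m + 1)) ^ Fintype.card ι *
        Real.exp (-(Z * ((Fintype.card ι : ℝ) - N))) := by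
  classical
  set P : ι → ι → ℂ[X] := fun i c => (1 + X) ^ h c *
    ∏ k, C ((α c k).choose (β i k) : ℂ) * Q i k ^ (α c k - β i k) with hP
  set N₀ : ℕ := (univ.sup s) + (univ.sup fun ic : ι × ι => (P ic.1 ic.2).natDegree) + 1 with hN₀
  have hs : ∀ i, s i < N₀ := fun i => by
    have := Finset.le_sup (f := s) (Finset.mem_univ i)
    omega
  have hdeg : ∀ i c, (P i c).natDegree < N₀ := fun i c => by
    have := Finset.le_sup (f := fun ic : ι × ι => (P ic.1 ic.2).natDegree)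
      (Finset.mem_univ (i, c))
    simp only at this
    omega
  have hN₀pos : 0 < N₀ := by omega
  obtain ⟨t, ht, havg⟩ := exists_circle_average N₀ ρ hρ
  set z : ι → ℕ → ℂ := fun i k => 2 * Real.pi * Complex.I * j i + Complex.log (1 + t k) with hz
  set x : ι → ℕ → Fin m → ℂ := fun i k l => (Q i l).eval (t k) - z i k with hx
  have ht1 : ∀ k, 1 + t k ≠ 0 := by
    intro k h0
    have h1 : t k = -1 := by linear_combination h0
    have h2 := ht k
    rw [h1] at h2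
    simp at h2
    linarith
  have hexp : ∀ i k, Complex.exp (z i k) = 1 + t k := by
    intro i k
    simp only [hz]
    rw [Complex.exp_add, Complex.exp_log (ht1 k), mul_comm _ (j i : ℂ),
      Complex.exp_int_mul_two_pi_mul_I, one_mul]
  have hznorm : ∀ i k, ‖z i k‖ ≤ r₀ := by
    intro i k
    have h1 : ‖Complex.log (1 + t k)‖ ≤ 1 := by
      have := Complex.norm_log_one_add_half_le_self (z := t k) (by rw [ht k]; exact hρ')
      rw [ht k] at this
      linarith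
    have h2 : ‖(2 * Real.pi * Complex.I * j i : ℂ)‖ = 2 * Real.pi * |(j i : ℝ)| := by
      simp [abs_of_pos Real.pi_pos]
    calc ‖z i k‖ ≤ ‖(2 * Real.pi * Complex.I * j i : ℂ)‖ + ‖Complex.log (1 + t k)‖ :=
          norm_add_le _ _
      _ ≤ r₀ := by rw [h2]; linarith [hj i]
  set lam : ι → (Fin m → ℕ) × ℕ → ℂ := fun i a => ∑ k ∈ range N₀,
    ((N₀ : ℂ)⁻¹ * (t k ^ s i)⁻¹) *
      ((∏ l, ((a.1 l).choose (β i l) : ℂ) * x i k l ^ (a.1 l - β i l)) * z i k ^ a.2) with hlam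
  set e : (Fin m → ℕ) × ℕ → ι → ℂ := fun a c => (colCoef (h c) (α c) a : ℂ) with he
  have hR0 : 0 < R := by linarith
  refine norm_det_le_of_hasSum _ lam e ?_ _ _ (fun i => by positivity) (fun c => by positivity)
    (fun a => (∏ k, (1 / 2 : ℝ) ^ a.1 k) * (1 / 2 : ℝ) ^ a.2)
    (fun a => (∑ k, y k * a.1 k) + κ * a.2)
    (fun a => mul_nonneg (Finset.prod_nonneg fun k _ => by positivity) (by positivity))
    _ sum_half_pow_le
    (fun a => add_nonneg (Finset.sum_nonneg fun k _ => mul_nonneg (hy k) (Nat.cast_nonneg _))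
      (mul_nonneg hκ (Nat.cast_nonneg _))) Z hZ N hN ?_
  · intro i c
    have h1 : ∀ k ∈ range N₀, HasSum (fun a : (Fin m → ℕ) × ℕ =>
        ((N₀ : ℂ)⁻¹ * (t k ^ s i)⁻¹) *
          (((∏ l, ((a.1 l).choose (β i l) : ℂ) * x i k l ^ (a.1 l - β i l)) * z i k ^ a.2) *
            (colCoef (h c) (α c) a : ℂ)))
        (((N₀ : ℂ)⁻¹ * (t k ^ s i)⁻¹) * (P i c).eval (t k)) := by
      intro k _
      refine hasSum_of_eq ((hasSum_expand (h c) (α c) (β i) (z i k) (x i k)).mul_left _) rfl ?_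
      congr 1
      rw [Complex.exp_nat_mul, hexp]
      simp only [hP, hx, eval_mul, eval_pow, eval_add, eval_one, eval_X, eval_prod, eval_C,
        add_sub_cancel]
    refine hasSum_of_eq (hasSum_sum h1) ?_ ?_
    · ext a
      simp only [hlam, he]
      rw [Finset.sum_mul]
      exact Finset.sum_congr rfl fun k _ => by ring
    · exact havg (s i) (P i c) (hs i) (hdeg i c)
  · intro i a c
    have hcol : 0 ≤ colCoef (h c) (α c) a :=
      mul_nonneg (Finset.prod_nonneg fun k _ => by positivity) (expCoef_nonneg _ _ _)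
    have h1 : ‖e a c‖ = colCoef (h c) (α c) a := by
      simp only [he, Complex.norm_real, Real.norm_eq_abs, abs_of_nonneg hcol]
    set V : ℝ := (∏ k, ((a.1 k).choose (β i k) : ℝ) * Real.exp (-y k) ^ (a.1 k - β i k)) *
      r₀ ^ a.2 with hV
    have h2 : ‖lam i a‖ ≤ (ρ ^ s i)⁻¹ * V := by
      have hterm : ∀ k ∈ range N₀, ‖((N₀ : ℂ)⁻¹ * (t k ^ s i)⁻¹) *
          ((∏ l, ((a.1 l).choose (β i l) : ℂ) * x i k l ^ (a.1 l - β i l)) * z i k ^ a.2)‖ ≤
          (N₀ : ℝ)⁻¹ * ((ρ ^ s i)⁻¹ * V) := by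
        intro k _
        rw [norm_mul, norm_mul, norm_mul, norm_inv, norm_inv, norm_pow, norm_pow, ht k, norm_prod,
          Complex.norm_natCast, mul_assoc]
        refine mul_le_mul_of_nonneg_left (mul_le_mul_of_nonneg_left ?_ (by positivity))
          (by positivity)
        refine mul_le_mul ?_ (pow_le_pow_left₀ (norm_nonneg _) (hznorm i k) _) (by positivity)
          (Finset.prod_nonneg fun k _ => by positivity)
        refine Finset.prod_le_prod (fun l _ => norm_nonneg _) fun l _ => ?_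
        rw [norm_mul, norm_pow, Complex.norm_natCast]
        exact mul_le_mul_of_nonneg_left
          (pow_le_pow_left₀ (norm_nonneg _) (hQ i l (t k) (ht k)) _) (Nat.cast_nonneg _)
      refine (norm_sum_le _ _).trans ((Finset.sum_le_sum hterm).trans (le_of_eq ?_))
      have hN0 : (N₀ : ℝ) ≠ 0 := by exact_mod_cast hN₀pos.ne'
      rw [Finset.sum_const, Finset.card_range, nsmul_eq_mul]
      field_simp
    have h3 := row_col_le (h c) (α c) (β i) y κ r₀ R hr₀ hR hRr a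
    rw [h1]
    calc ‖lam i a‖ * colCoef (h c) (α c) a ≤ ((ρ ^ s i)⁻¹ * V) * colCoef (h c) (α c) a :=
          mul_le_mul_of_nonneg_right h2 hcol
      _ = (ρ ^ s i)⁻¹ * (V * colCoef (h c) (α c) a) := by ring
      _ ≤ (ρ ^ s i)⁻¹ * _ := mul_le_mul_of_nonneg_left h3 (by positivity)
      _ = _ := by ring

end Vale.Agent.P021Z.An
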