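import Mathlib.Analysis.SpecialFunctions.Complex.LogBounds
import Mathlib.Algebra.MvPolynomial.Equiv
import Mathlib.Algebra.MvPolynomial.CommRing

/-!
The truncated logarithm on a circle, and the jet of a monomial as a coefficient of a polynomial in
one variable.
-/

namespace Vale.Agent.P021Z.An

open Finset

theorem eval_logSum (T : ℕ) (t : ℂ) :
    (∑ k ∈ range T, Polynomial.monomial (k + 1) ((-1 : ℂ) ^ k / ((k : ℂ) + 1))).eval t =
      Complex.logTaylor (T + 1) t := by
  rw [Polynomial.eval_finsetSum, Complex.logTaylor]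
  rw [Finset.sum_range_succ']
  simp only [Polynomial.eval_monomial, Nat.cast_zero, div_zero, add_zero]
  refine Finset.sum_congr rfl fun k _ => ?_
  push_cast
  ring

/-- The truncated logarithm is close to the logarithm on a small circle. -/
theorem norm_logTaylor_sub_le (T : ℕ) (t : ℂ) (ρ : ℝ) (ht : ‖t‖ = ρ) (hρ : ρ ≤ 1 / 2) :
    ‖Complex.logTaylor (T + 1) t - Complex.log (1 + t)‖ ≤ 2 * ρ ^ (T + 1) := by
  have hρ0 : 0 ≤ ρ := ht ▸ norm_nonneg t
  have h := Complex.norm_log_sub_logTaylor_le T (z := t) (by rw [ht]; linarith)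
  rw [norm_sub_rev, ht] at h
  refine h.trans ?_
  have h1 : (1 - ρ)⁻¹ ≤ 2 := by
    rw [inv_le_comm₀ (by linarith) (by norm_num)]
    linarith
  have h2 : (1 : ℝ) ≤ (T : ℝ) + 1 := by
    have : (0 : ℝ) ≤ T := Nat.cast_nonneg T
    linarith
  have h3 : 0 ≤ (1 - ρ)⁻¹ := inv_nonneg.2 (by linarith)
  calc ρ ^ (T + 1) * (1 - ρ)⁻¹ / ((T : ℝ) + 1) ≤ ρ ^ (T + 1) * (1 - ρ)⁻¹ :=
        div_le_self (by positivity) h2
    _ ≤ ρ ^ (T + 1) * 2 := mul_le_mul_of_nonneg_left h1 (by positivity)
    _ = _ := mul_comm _ _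

/-- The hypothesis `hQ` of the analytic bound for the centre `j r` and the truncated logarithm. -/
theorem norm_centre_sub_le (G : Polynomial ℂ) (T : ℕ)
    (hG : ∀ t, G.eval t = Complex.logTaylor (T + 1) t) (r : ℂ) (j : ℤ) (ε ρ : ℝ)
    (hr : ‖r - 2 * Real.pi * Complex.I‖ ≤ ε) (hρ : ρ ≤ 1 / 2) (t : ℂ) (ht : ‖t‖ = ρ) :
    ‖(Polynomial.C ((j : ℂ) * r) + G).eval t -
        (2 * Real.pi * Complex.I * j + Complex.log (1 + t))‖ ≤
      |(j : ℝ)| * ε + 2 * ρ ^ (T + 1) := by
  have h1 : (Polynomial.C ((j : ℂ) * r) + G).eval t -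
      (2 * Real.pi * Complex.I * j + Complex.log (1 + t)) =
      (j : ℂ) * (r - 2 * Real.pi * Complex.I) +
        (Complex.logTaylor (T + 1) t - Complex.log (1 + t)) := by
    rw [Polynomial.eval_add, Polynomial.eval_C, hG]
    ring
  rw [h1]
  refine (norm_add_le _ _).trans (add_le_add ?_ (norm_logTaylor_sub_le T t ρ ht hρ))
  rw [norm_mul, Complex.norm_intCast]
  exact mul_le_mul_of_nonneg_left hr (abs_nonneg _)

open MvPolynomial

theorem coeff_aeval_mul_monomial {m : ℕ} {K : Type*} [CommRing K] (p : Polynomial K)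
    (g : Fin m →₀ ℕ) (d : Fin (m + 1) →₀ ℕ) :
    coeff d (Polynomial.aeval (X 0 : MvPolynomial (Fin (m + 1)) K) p *
        monomial (Finsupp.cons 0 g) 1) = if g = d.tail then p.coeff (d 0) else 0 := by
  classical
  induction p using Polynomial.induction_on' with
  | add p q hp hq =>
    rw [map_add, add_mul, coeff_add, hp, hq, Polynomial.coeff_add]
    split_ifs <;> simp
  | monomial n a =>
    have h1 : Finsupp.single (0 : Fin (m + 1)) n + Finsupp.cons 0 g = Finsupp.cons n g := by
      ext i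
      refine Fin.cases ?_ (fun i => ?_) i
      · simp
      · simp
    rw [Polynomial.aeval_monomial, X_pow_eq_monomial, algebraMap_eq, C_mul_monomial,
      monomial_mul, h1, coeff_monomial, Polynomial.coeff_monomial]
    by_cases hg : g = d.tail
    · subst hg
      by_cases hn : n = d 0
      · subst hn
        simp [Finsupp.cons_tail]
      · have : Finsupp.cons n d.tail ≠ d := by
          intro h
          apply hn
          have := congrArg (fun f : Fin (m + 1) →₀ ℕ => f 0) h
          simpa using this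
        simp [this, hn]
    · have : Finsupp.cons n g ≠ d := by
        intro h
        apply hg
        rw [← h, Finsupp.tail_cons]
      simp [this, hg]

/-- The jet `[t ^ d 0 * u ^ tail d]` of the product `P = (1 + t) ^ h * ∏ (Q k t + u k) ^ α k`. -/
theorem coeff_prod_pow {m : ℕ} {K : Type*} [CommRing K] (Q : Fin m → Polynomial K) (h : ℕ)
    (α : Fin m → ℕ) (d : Fin (m + 1) →₀ ℕ) :
    coeff d ((1 + X 0 : MvPolynomial (Fin (m + 1)) K) ^ h *
        ∏ k : Fin m, (Polynomial.aeval (X 0 : MvPolynomial (Fin (m + 1)) K) (Q k) + X k.succ) ^ α k) =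
      ((1 + Polynomial.X) ^ h * ∏ k : Fin m,
        Polynomial.C ((α k).choose (d k.succ) : K) * Q k ^ (α k - d k.succ)).coeff (d 0) := by
  classical
  set P : (Fin m → ℕ) → Polynomial K := fun g => (1 + Polynomial.X) ^ h * ∏ k : Fin m,
    Polynomial.C ((α k).choose (g k) : K) * Q k ^ (α k - g k) with hP
  have hmon : ∀ g : Fin m → ℕ, (∏ k : Fin m, (X k.succ : MvPolynomial (Fin (m + 1)) K) ^ g k) =
      monomial (Finsupp.cons 0 (Finsupp.equivFunOnFinite.symm g)) 1 := by
    intro g
    rw [monomial_eq, Finsupp.prod_fintype _ _ (fun i => pow_zero _), Fin.prod_univ_succ]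
    simp
  have hexp : ((1 + X 0 : MvPolynomial (Fin (m + 1)) K) ^ h *
      ∏ k : Fin m, (Polynomial.aeval (X 0 : MvPolynomial (Fin (m + 1)) K) (Q k) + X k.succ) ^ α k) =
      ∑ g ∈ Fintype.piFinset (fun k => range (α k + 1)),
        Polynomial.aeval (X 0 : MvPolynomial (Fin (m + 1)) K) (P g) *
          monomial (Finsupp.cons 0 (Finsupp.equivFunOnFinite.symm g)) 1 := by
    have hk : ∀ k : Fin m,
        (Polynomial.aeval (X 0 : MvPolynomial (Fin (m + 1)) K) (Q k) + X k.succ) ^ α k =
        ∑ g ∈ range (α k + 1), X k.succ ^ g *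
          Polynomial.aeval (X 0 : MvPolynomial (Fin (m + 1)) K) (Q k) ^ (α k - g) *
            ((α k).choose g : MvPolynomial (Fin (m + 1)) K) := fun k => by
      rw [add_comm (Polynomial.aeval _ (Q k)), add_pow]
    simp only [hk]
    rw [Finset.prod_univ_sum, Finset.mul_sum]
    refine Finset.sum_congr rfl fun g _ => ?_
    rw [← hmon g]
    simp only [hP, map_mul, map_pow, map_add, map_one, Polynomial.aeval_X, map_prod, map_natCast,
      Finset.prod_mul_distrib]
    ring
  rw [hexp, coeff_sum]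
  simp only [coeff_aeval_mul_monomial]
  have hiff : ∀ g : Fin m → ℕ, (Finsupp.equivFunOnFinite.symm g = d.tail) ↔
      (g = fun k => d k.succ) := by
    intro g
    rw [Equiv.symm_apply_eq]
    rfl
  simp only [hiff]
  rw [Finset.sum_ite_eq']
  split_ifs with hmem
  · rfl
  · have : ∃ k, α k < d k.succ := by
      by_contra hcon
      push Not at hcon
      exact hmem (Fintype.mem_piFinset.2 fun k => Finset.mem_range.2 (Nat.lt_succ_of_le (hcon k)))
    obtain ⟨k, hk⟩ := this
    rw [Finset.prod_eq_zero (Finset.mem_univ k) (by rw [Nat.choose_eq_zero_of_lt hk]; simp)]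
    simp

/-- The jet of a monomial under the substitution `Y = 1 + t`, `X k = Q k t + u k`. -/
theorem coeff_aeval_monomial {m : ℕ} {K : Type*} [CommRing K] (Q : Fin m → Polynomial K)
    (f : Fin (m + 1) → MvPolynomial (Fin (m + 1)) K) (hf0 : f 0 = 1 + X 0)
    (hf : ∀ k : Fin m, f k.succ =
      Polynomial.aeval (X 0 : MvPolynomial (Fin (m + 1)) K) (Q k) + X k.succ)
    (e d : Fin (m + 1) →₀ ℕ) :
    coeff d (aeval f (monomial e (1 : K))) =
      ((1 + Polynomial.X) ^ e 0 * ∏ k : Fin m,
        Polynomial.C ((e k.succ).choose (d k.succ) : K) * Q k ^ (e k.succ - d k.succ)).coeff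
          (d 0) := by
  rw [← coeff_prod_pow Q (e 0) (fun k => e k.succ) d, aeval_monomial, map_one, one_mul,
    Finsupp.prod_fintype _ _ (fun i => pow_zero _), Fin.prod_univ_succ, hf0]
  simp only [hf]

end Vale.Agent.P021Z.An
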