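import Mathlib.Algebra.BigOperators.Fin
import Mathlib.Algebra.Order.BigOperators.Ring.Finset
import Mathlib.Algebra.Order.Archimedean.Real.Basic
import Mathlib.Data.Finsupp.Fintype
import Mathlib.Data.Set.Card
import Mathlib.Tactic.Positivity
import Mathlib.Tactic.FieldSimp
import Mathlib.Tactic.Linarith
import Mathlib.Tactic.Ring

/-!
Lattice points in a simplex: for positive weights `a`, the number of `x : σ → ℕ` with
`∑ a i * x i < Z` is at least `Z ^ d / (d! * ∏ a)`, and the number with `∑ a i * x i ≤ Z` is at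
most the same expression with `Z + ∑ a` in place of `Z`, where `d` is the cardinality of `σ`.
-/

namespace Vale.Agent.P021Z.An

open Finset

theorem pow_succ_add_le (y a : ℝ) (hy : 0 ≤ y) (ha : 0 ≤ a) (d : ℕ) :
    y ^ (d + 1) + (d + 1) * a * y ^ d ≤ (y + a) ^ (d + 1) := by
  induction d with
  | zero => simp
  | succ d ih =>
    have h1 : (y + a) * (y ^ (d + 1) + (d + 1) * a * y ^ d) ≤ (y + a) * (y + a) ^ (d + 1) :=
      mul_le_mul_of_nonneg_left ih (by positivity)
    have h2 : 0 ≤ (d + 1) * a * a * y ^ d := by positivity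
    rw [pow_succ' (y + a) (d + 1)]
    push_cast
    calc y ^ (d + 1 + 1) + ((d : ℝ) + 1 + 1) * a * y ^ (d + 1)
        ≤ (y + a) * (y ^ (d + 1) + (d + 1) * a * y ^ d) := by
          have : (y + a) * (y ^ (d + 1) + (d + 1) * a * y ^ d) =
              y ^ (d + 1 + 1) + ((d : ℝ) + 1 + 1) * a * y ^ (d + 1) + (d + 1) * a * a * y ^ d := by
            ring
          linarith
      _ ≤ _ := h1

theorem add_pow_succ_le (y a : ℝ) (hy : 0 ≤ y) (ha : 0 ≤ a) (d : ℕ) :
    (y + a) ^ (d + 1) ≤ y ^ (d + 1) + (d + 1) * a * (y + a) ^ d := by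
  induction d with
  | zero => simp
  | succ d ih =>
    have h1 : (y + a) * (y + a) ^ (d + 1) ≤ (y + a) * (y ^ (d + 1) + (d + 1) * a * (y + a) ^ d) :=
      mul_le_mul_of_nonneg_left ih (by positivity)
    have h2 : a * y ^ (d + 1) ≤ a * (y + a) ^ (d + 1) :=
      mul_le_mul_of_nonneg_left (pow_le_pow_left₀ hy (by linarith) _) ha
    rw [pow_succ' (y + a) (d + 1)]
    push_cast
    have : (y + a) * (y ^ (d + 1) + (d + 1) * a * (y + a) ^ d) =
        y ^ (d + 1 + 1) + a * y ^ (d + 1) + (d + 1) * a * (y + a) ^ (d + 1) := by ring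
    have h3 : ((d : ℝ) + 1 + 1) * a * (y + a) ^ (d + 1) =
        (d + 1) * a * (y + a) ^ (d + 1) + a * (y + a) ^ (d + 1) := by ring
    linarith

theorem card_le_simplex_fin (d : ℕ) : ∀ (a : Fin d → ℝ) (_ : ∀ i, 0 < a i) (Z : ℝ)
    (_ : 0 ≤ Z + ∑ i, a i) (F : Finset (Fin d → ℕ)) (_ : ∀ x ∈ F, ∑ i, a i * x i ≤ Z),
    (F.card : ℝ) ≤ (Z + ∑ i, a i) ^ d / (d.factorial * ∏ i, a i) := by
  classical
  induction d with
  | zero =>
    intro a _ Z _ F _
    have : F.card ≤ 1 := Finset.card_le_one.2 fun x _ y _ => Subsingleton.elim x y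
    simpa using this
  | succ d ihd =>
    intro a ha
    have ha0 := ha 0
    have hsum : 0 ≤ ∑ i : Fin d, a i.succ := Finset.sum_nonneg fun i _ => (ha _).le
    have hprod : 0 < ∏ i : Fin d, a i.succ := Finset.prod_pos fun i _ => ha _
    have main : ∀ (n : ℕ) (Z : ℝ), Z < n * a 0 → 0 ≤ Z + ∑ i, a i →
        ∀ F : Finset (Fin (d + 1) → ℕ), (∀ x ∈ F, ∑ i, a i * x i ≤ Z) →
        (F.card : ℝ) ≤ (Z + ∑ i, a i) ^ (d + 1) / ((d + 1).factorial * ∏ i, a i) := by
      have hneg : ∀ Z : ℝ, Z < 0 → 0 ≤ Z + ∑ i, a i →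
          ∀ F : Finset (Fin (d + 1) → ℕ), (∀ x ∈ F, ∑ i, a i * x i ≤ Z) →
          (F.card : ℝ) ≤ (Z + ∑ i, a i) ^ (d + 1) / ((d + 1).factorial * ∏ i, a i) := by
        intro Z hZ hZ' F hF
        have hE : F = ∅ := by
          refine Finset.eq_empty_of_forall_notMem fun x hx => ?_
          have h1 := hF x hx
          have h2 : 0 ≤ ∑ i, a i * x i :=
            Finset.sum_nonneg fun i _ => mul_nonneg (ha i).le (Nat.cast_nonneg _)
          linarith
        have hp : 0 < ∏ i, a i := Finset.prod_pos fun i _ => ha i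
        rw [hE, Finset.card_empty, Nat.cast_zero]
        positivity
      intro n
      induction n with
      | zero => intro Z hZ; exact hneg Z (by simpa using hZ)
      | succ n ihn =>
        intro Z hZ hZ' F hF
        rcases lt_or_ge Z 0 with hZ0 | hZ0
        · exact hneg Z hZ0 hZ' F hF
        set F0 := F.filter (fun x => x 0 = 0) with hF0
        set F1 := F.filter (fun x => ¬ x 0 = 0) with hF1
        have hcard : F0.card + F1.card = F.card := Finset.card_filter_add_card_filter_not _
        have h0 : (F0.card : ℝ) ≤ (Z + ∑ i : Fin d, a i.succ) ^ d /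
            (d.factorial * ∏ i : Fin d, a i.succ) := by
          have hinj : Set.InjOn (fun x : Fin (d + 1) → ℕ => fun i : Fin d => x i.succ) F0 := by
            intro x hx y hy hxy
            have hx0 := (Finset.mem_filter.1 hx).2
            have hy0 := (Finset.mem_filter.1 hy).2
            funext i
            refine Fin.cases ?_ (fun i => ?_) i
            · rw [hx0, hy0]
            · exact congrFun hxy i
          rw [← Finset.card_image_of_injOn hinj]
          refine ihd (fun i => a i.succ) (fun i => ha _) Z (by linarith) _ fun y hy => ?_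
          obtain ⟨x, hx, rfl⟩ := Finset.mem_image.1 hy
          have h1 := hF x (Finset.mem_filter.1 hx).1
          rw [Fin.sum_univ_succ, (Finset.mem_filter.1 hx).2] at h1
          simpa using h1
        have h1 : (F1.card : ℝ) ≤ (Z - a 0 + ∑ i, a i) ^ (d + 1) /
            ((d + 1).factorial * ∏ i, a i) := by
          have hinj : Set.InjOn (fun x : Fin (d + 1) → ℕ => Function.update x 0 (x 0 - 1)) F1 := by
            intro x hx y hy hxy
            have hx0 := (Finset.mem_filter.1 hx).2
            have hy0 := (Finset.mem_filter.1 hy).2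
            funext i
            have hi := congrFun hxy i
            refine Fin.cases (fun hi => ?_) (fun i hi => ?_) i hi
            · simp only [Function.update_self] at hi
              omega
            · simpa [Function.update_of_ne (Fin.succ_ne_zero i)] using hi
          rw [← Finset.card_image_of_injOn hinj]
          refine ihn (Z - a 0) (by push_cast at hZ; linarith)
            (by rw [Fin.sum_univ_succ]; linarith) _ fun y hy => ?_
          obtain ⟨x, hx, rfl⟩ := Finset.mem_image.1 hy
          have h1 := hF x (Finset.mem_filter.1 hx).1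
          have hx0 : 1 ≤ x 0 := Nat.one_le_iff_ne_zero.2 (Finset.mem_filter.1 hx).2
          rw [Fin.sum_univ_succ] at h1 ⊢
          simp only [Function.update_self, Function.update_of_ne (Fin.succ_ne_zero _)]
          rw [Nat.cast_sub hx0]
          push_cast
          linarith
        have h2 : (F.card : ℝ) = F0.card + F1.card := by exact_mod_cast hcard.symm
        rw [Fin.sum_univ_succ, Fin.prod_univ_succ] at h1 ⊢
        set y : ℝ := Z + ∑ i : Fin d, a i.succ with hy
        have hy0 : 0 ≤ y := by linarith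
        have h3 := pow_succ_add_le y (a 0) hy0 ha0.le d
        have e1 : Z - a 0 + (a 0 + ∑ i : Fin d, a i.succ) = y := by rw [hy]; ring
        have e2 : Z + (a 0 + ∑ i : Fin d, a i.succ) = y + a 0 := by rw [hy]; ring
        rw [e1] at h1
        rw [e2, h2]
        have hf : (0 : ℝ) < d.factorial := by exact_mod_cast d.factorial_pos
        have e3 : y ^ d / (d.factorial * ∏ i : Fin d, a i.succ) =
            ((d + 1) * a 0 * y ^ d) / ((d + 1).factorial * (a 0 * ∏ i : Fin d, a i.succ)) := by
          rw [Nat.factorial_succ]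
          push_cast
          field_simp
        rw [e3] at h0
        have hden : (0 : ℝ) < (d + 1).factorial * (a 0 * ∏ i : Fin d, a i.succ) := by positivity
        calc (F0.card : ℝ) + F1.card ≤ _ := add_le_add h0 h1
          _ ≤ _ := by
            rw [← add_div]
            exact div_le_div_of_nonneg_right (by linarith) hden.le
    intro Z hZ F hF
    obtain ⟨n, hn⟩ := exists_nat_gt (Z / a 0)
    exact main n Z ((div_lt_iff₀ ha0).1 hn) hZ F hF

theorem simplex_le_card_fin (d : ℕ) : ∀ (a : Fin d → ℝ) (_ : ∀ i, 0 < a i) (Z : ℝ)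
    (_ : 0 < Z) (F : Finset (Fin d → ℕ)) (_ : ∀ x : Fin d → ℕ, ∑ i, a i * x i < Z → x ∈ F),
    Z ^ d / (d.factorial * ∏ i, a i) ≤ (F.card : ℝ) := by
  classical
  induction d with
  | zero =>
    intro a _ Z hZ F hF
    have : 1 ≤ F.card := Finset.card_pos.2 ⟨0, hF _ (by simpa using hZ)⟩
    simpa using this
  | succ d ihd =>
    intro a ha
    have ha0 := ha 0
    have hprod : 0 < ∏ i : Fin d, a i.succ := Finset.prod_pos fun i _ => ha _
    have main : ∀ (n : ℕ) (Z : ℝ), Z ≤ n * a 0 → 0 < Z →
        ∀ F : Finset (Fin (d + 1) → ℕ), (∀ x : Fin (d + 1) → ℕ, ∑ i, a i * x i < Z → x ∈ F) →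
        Z ^ (d + 1) / ((d + 1).factorial * ∏ i, a i) ≤ (F.card : ℝ) := by
      intro n
      induction n with
      | zero => intro Z hZ hZ'; simp at hZ; linarith
      | succ n ihn =>
        intro Z hZ hZ0 F hF
        set F0 := F.filter (fun x => x 0 = 0) with hF0
        set F1 := F.filter (fun x => ¬ x 0 = 0) with hF1
        have hcard : F0.card + F1.card = F.card := Finset.card_filter_add_card_filter_not _
        have h0 : Z ^ d / (d.factorial * ∏ i : Fin d, a i.succ) ≤ (F0.card : ℝ) := by
          refine (ihd (fun i => a i.succ) (fun i => ha _) Z hZ0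
            (F0.image fun x : Fin (d + 1) → ℕ => fun i : Fin d => x i.succ) fun y hy => ?_).trans
            (by exact_mod_cast Finset.card_image_le)
          refine Finset.mem_image.2 ⟨Fin.cons 0 y, Finset.mem_filter.2 ⟨hF _ ?_, rfl⟩, rfl⟩
          rw [Fin.sum_univ_succ]
          simpa using hy
        have h2 : (F.card : ℝ) = F0.card + F1.card := by exact_mod_cast hcard.symm
        have hf : (0 : ℝ) < d.factorial := by exact_mod_cast d.factorial_pos
        have e3 : Z ^ d / (d.factorial * ∏ i : Fin d, a i.succ) =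
            ((d + 1) * a 0 * Z ^ d) / ((d + 1).factorial * (a 0 * ∏ i : Fin d, a i.succ)) := by
          rw [Nat.factorial_succ]
          push_cast
          field_simp
        rw [e3] at h0
        have hden : (0 : ℝ) < (d + 1).factorial * (a 0 * ∏ i : Fin d, a i.succ) := by positivity
        rcases lt_or_ge (a 0) Z with hZa | hZa
        · have h1 : (Z - a 0) ^ (d + 1) / ((d + 1).factorial * ∏ i, a i) ≤ (F1.card : ℝ) := by
            refine (ihn (Z - a 0) (by push_cast at hZ; linarith) (by linarith)
              (F1.image fun x : Fin (d + 1) → ℕ => Function.update x 0 (x 0 - 1))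
              fun y hy => ?_).trans (by exact_mod_cast Finset.card_image_le)
            refine Finset.mem_image.2 ⟨Function.update y 0 (y 0 + 1),
              Finset.mem_filter.2 ⟨hF _ ?_, by simp⟩, by simp⟩
            rw [Fin.sum_univ_succ] at hy ⊢
            simp only [Function.update_self, Function.update_of_ne (Fin.succ_ne_zero _)]
            push_cast
            linarith
          rw [Fin.prod_univ_succ] at h1 ⊢
          have h3 := add_pow_succ_le (Z - a 0) (a 0) (by linarith) ha0.le d
          rw [sub_add_cancel] at h3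
          rw [h2]
          refine le_trans ?_ (add_le_add h0 h1)
          rw [← add_div]
          exact div_le_div_of_nonneg_right (by linarith) hden.le
        · rw [Fin.prod_univ_succ, h2]
          have h3 : Z ^ (d + 1) ≤ (d + 1) * a 0 * Z ^ d := by
            have h4 : Z ≤ (d + 1) * a 0 := by
              have : (0 : ℝ) ≤ d * a 0 := by positivity
              linarith
            rw [pow_succ']
            exact mul_le_mul_of_nonneg_right h4 (by positivity)
          have h5 : (0 : ℝ) ≤ F1.card := Nat.cast_nonneg _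
          have h6 := div_le_div_of_nonneg_right h3 hden.le
          linarith
    intro Z hZ F hF
    obtain ⟨n, hn⟩ := exists_nat_ge (Z / a 0)
    exact main n Z ((div_le_iff₀ ha0).1 hn) hZ F hF

/-- Upper bound for the number of lattice points in a closed simplex. -/
theorem card_le_simplex {σ : Type*} [Fintype σ] (a : σ → ℝ) (ha : ∀ i, 0 < a i) (Z : ℝ)
    (hZ : 0 ≤ Z + ∑ i, a i) (F : Finset (σ → ℕ)) (hF : ∀ x ∈ F, ∑ i, a i * x i ≤ Z) :
    (F.card : ℝ) ≤ (Z + ∑ i, a i) ^ Fintype.card σ / ((Fintype.card σ).factorial * ∏ i, a i) := by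
  classical
  set e := (Fintype.equivFin σ).symm
  have hinj : Function.Injective (fun x : σ → ℕ => x ∘ e) := e.surjective.injective_comp_right
  have h := card_le_simplex_fin (Fintype.card σ) (fun i => a (e i)) (fun i => ha _) Z
    (by rwa [Equiv.sum_comp e a]) (F.image fun x => x ∘ e) (fun y hy => by
      obtain ⟨x, hx, rfl⟩ := Finset.mem_image.1 hy
      have := Equiv.sum_comp e (fun i => a i * x i)
      simpa [this] using hF x hx)
  rwa [Finset.card_image_of_injective _ hinj, Equiv.sum_comp e a, Equiv.prod_comp e a] at h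

/-- Lower bound for the number of lattice points in an open simplex. -/
theorem simplex_le_card {σ : Type*} [Fintype σ] (a : σ → ℝ) (ha : ∀ i, 0 < a i) (Z : ℝ)
    (hZ : 0 < Z) (F : Finset (σ → ℕ)) (hF : ∀ x : σ → ℕ, ∑ i, a i * x i < Z → x ∈ F) :
    Z ^ Fintype.card σ / ((Fintype.card σ).factorial * ∏ i, a i) ≤ (F.card : ℝ) := by
  classical
  set e := (Fintype.equivFin σ).symm
  have h := simplex_le_card_fin (Fintype.card σ) (fun i => a (e i)) (fun i => ha _) Z hZ
    (F.image fun x => x ∘ e) (fun y hy => by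
      refine Finset.mem_image.2 ⟨y ∘ e.symm, hF _ ?_, by ext i; simp⟩
      have := Equiv.sum_comp e (fun i => a i * ((y ∘ e.symm) i : ℕ))
      rw [← this]
      simpa using hy)
  rw [Equiv.prod_comp e a] at h
  exact h.trans (by exact_mod_cast Finset.card_image_le)

/-- A simplex holds finitely many lattice points. -/
theorem finite_simplex {σ : Type*} [Fintype σ] (a : σ → ℝ) (ha : ∀ i, 0 < a i) (Z : ℝ) :
    {x : σ → ℕ | ∑ i, a i * x i ≤ Z}.Finite := by
  refine (Set.Finite.pi' (t := fun i => Set.Iic ⌊Z / a i⌋₊) fun i => Set.finite_Iic _).subset ?_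
  intro x hx i
  have h1 : a i * x i ≤ ∑ i, a i * x i :=
    Finset.single_le_sum (f := fun i => a i * x i)
      (fun i _ => mul_nonneg (ha i).le (Nat.cast_nonneg _)) (Finset.mem_univ i)
  refine Nat.le_floor ?_
  rw [le_div_iff₀ (ha i), mul_comm]
  exact h1.trans hx

/-- Upper bound, exponents as finitely supported functions. -/
theorem card_le_simplex_finsupp {σ : Type*} [Fintype σ] (a : σ → ℝ) (ha : ∀ i, 0 < a i) (Z : ℝ)
    (hZ : 0 ≤ Z + ∑ i, a i) (F : Finset (σ →₀ ℕ)) (hF : ∀ x ∈ F, ∑ i, a i * x i ≤ Z) :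
    (F.card : ℝ) ≤ (Z + ∑ i, a i) ^ Fintype.card σ / ((Fintype.card σ).factorial * ∏ i, a i) := by
  classical
  have h := card_le_simplex a ha Z hZ (F.image fun x : σ →₀ ℕ => (x : σ → ℕ)) (fun y hy => by
    obtain ⟨x, hx, rfl⟩ := Finset.mem_image.1 hy
    exact hF x hx)
  rwa [Finset.card_image_of_injective _ DFunLike.coe_injective] at h

/-- Lower bound, exponents as finitely supported functions. -/
theorem simplex_le_card_finsupp {σ : Type*} [Fintype σ] (a : σ → ℝ) (ha : ∀ i, 0 < a i) (Z : ℝ)
    (hZ : 0 < Z) (F : Finset (σ →₀ ℕ)) (hF : ∀ x : σ →₀ ℕ, ∑ i, a i * x i < Z → x ∈ F) :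
    Z ^ Fintype.card σ / ((Fintype.card σ).factorial * ∏ i, a i) ≤ (F.card : ℝ) := by
  classical
  refine (simplex_le_card a ha Z hZ (F.image fun x : σ →₀ ℕ => (x : σ → ℕ)) fun y hy => ?_).trans
    (by exact_mod_cast Finset.card_image_le)
  exact Finset.mem_image.2 ⟨Finsupp.equivFunOnFinite.symm y, hF _ (by simpa using hy), by simp⟩

theorem finite_simplex_finsupp {σ : Type*} [Fintype σ] (a : σ → ℝ) (ha : ∀ i, 0 < a i) (Z : ℝ) :
    {x : σ →₀ ℕ | ∑ i, a i * x i ≤ Z}.Finite :=
  (finite_simplex a ha Z).preimage (f := fun x : σ →₀ ℕ => (x : σ → ℕ))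
    DFunLike.coe_injective.injOn

/-- The count needed in the analytic bound. -/
theorem card_le_simplex_prod {m : ℕ} (y : Fin m → ℝ) (hy : ∀ k, 0 < y k) (κ : ℝ) (hκ : 0 < κ)
    (Z : ℝ) (hZ : 0 ≤ Z) (F : Finset ((Fin m → ℕ) × ℕ))
    (hF : ∀ a ∈ F, (∑ k, y k * a.1 k) + κ * a.2 ≤ Z) :
    (F.card : ℝ) ≤ (Z + (κ + ∑ k, y k)) ^ (m + 1) / ((m + 1).factorial * (κ * ∏ k, y k)) := by
  classical
  have hinj : Function.Injective
      (fun a : (Fin m → ℕ) × ℕ => (Fin.cons a.2 a.1 : Fin (m + 1) → ℕ)) := by
    intro a b hab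
    have := Fin.cons_injective2 hab
    exact Prod.ext this.2 this.1
  have hs : 0 ≤ ∑ k, y k := Finset.sum_nonneg fun k _ => (hy k).le
  have h := card_le_simplex_fin (m + 1) (Fin.cons κ y) (fun i => Fin.cases hκ hy i) Z
    (by rw [Fin.sum_univ_succ]; simp only [Fin.cons_zero, Fin.cons_succ]; linarith)
    (F.image fun a => (Fin.cons a.2 a.1 : Fin (m + 1) → ℕ)) (fun x hx => by
      obtain ⟨a, ha, rfl⟩ := Finset.mem_image.1 hx
      rw [Fin.sum_univ_succ]
      simp only [Fin.cons_zero, Fin.cons_succ]
      linarith [hF a ha])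
  rw [Finset.card_image_of_injective _ hinj, Fin.sum_univ_succ, Fin.prod_univ_succ] at h
  simpa only [Fin.cons_zero, Fin.cons_succ] using h

end Vale.Agent.P021Z.An
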