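import Vale.Agent.P021Z.Defs
import Vale.Agent.P021Z.An.Jet
import Vale.Agent.P021Z.An.Bound
import Vale.Agent.P021Z.An.Simplex

/-!
The jets of a monomial as coefficients of a polynomial in one variable, and the analytic upper
bound for a square minor of the jet matrix.
-/

open MvPolynomial

namespace Vale.Agent.P021Z

theorem coeff_phi_monomial {m : ℕ} (r : Fin m → ℂ) (T : Fin m → ℕ) (j : ℕ)
    (α β : Fin (m + 1) →₀ ℕ) :
    coeff β (phi r T j (monomial α 1)) =
      ((1 + Polynomial.X) ^ α 0 * ∏ k : Fin m,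
        Polynomial.C (((α k.succ).choose (β k.succ) : ℕ) : ℂ) *
          (Polynomial.C ((j : ℂ) * r k) + logTrunc (T k)) ^ (α k.succ - β k.succ)).coeff (β 0) := by
  refine An.coeff_aeval_monomial (fun k => Polynomial.C ((j : ℂ) * r k) + logTrunc (T k)) _ rfl
    (fun k => ?_) α β
  simp only [Fin.cases_succ, map_add, Polynomial.aeval_C, algebraMap_eq]

theorem eval_logTrunc (T : ℕ) (t : ℂ) : (logTrunc T).eval t = Complex.logTaylor (T + 1) t := by
  rw [← An.eval_logSum, logTrunc]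
  simp only [Polynomial.C_mul_X_pow_eq_monomial]

/-- The analytic upper bound for any square minor of the jet matrix (rows given by `j i` and `β i`, columns by
`α c`), with rates `y k`. -/
theorem norm_det_jet_le {ι : Type*} [Fintype ι] [DecidableEq ι] {m : ℕ} (r : Fin m → ℂ)
    (T : Fin m → ℕ) (K : ℕ) (j : ι → ℕ) (hj : ∀ i, j i < K) (β α : ι → Fin (m + 1) →₀ ℕ)
    (y ε : Fin m → ℝ) (ρ κ R Z : ℝ) (hρ : 0 < ρ) (hρ' : ρ ≤ 1 / 2) (hy : ∀ k, 0 < y k)
    (hκ : 0 < κ) (hZ : 0 ≤ Z) (hR : 1 ≤ R) (hRK : 4 * Real.pi * K * Real.exp κ ≤ R)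
    (hr : ∀ k, ‖r k - 2 * Real.pi * Complex.I‖ ≤ ε k)
    (hε : ∀ k, K * ε k + 2 * ρ ^ (T k + 1) ≤ Real.exp (-y k)) :
    ‖(Matrix.of fun i c => coeff (β i) (phi r T (j i) (monomial (α c) 1))).det‖ ≤
      (Fintype.card ι).factorial * (∏ i, (ρ ^ β i 0)⁻¹ * Real.exp (∑ k, y k * β i k.succ)) *
        (∏ c, Real.exp (α c 0 * R) * (8 * R) ^ (∑ k : Fin m, α c k.succ)) *
        (2 ^ (m + 1)) ^ Fintype.card ι *
        Real.exp (-(Z * ((Fintype.card ι : ℝ) -
          (Z + (κ + ∑ k, y k)) ^ (m + 1) / ((m + 1).factorial * (κ * ∏ k, y k))))) := by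
  set N : ℝ := (Z + (κ + ∑ k, y k)) ^ (m + 1) / ((m + 1).factorial * (κ * ∏ k, y k)) with hN
  have hsum : 0 ≤ ∑ k, y k := Finset.sum_nonneg fun k _ => (hy k).le
  have hprod : 0 < ∏ k, y k := Finset.prod_pos fun k _ => hy k
  have hN0 : 0 ≤ N := by positivity
  have hpi := Real.pi_gt_three
  have h := An.det_bound' (fun i k => Polynomial.C ((j i : ℂ) * r k) + logTrunc (T k))
    (fun i => (j i : ℤ)) (fun i => β i 0) (fun c => α c 0) (fun c k => α c k.succ)
    (fun i k => β i k.succ) y ρ κ (2 * Real.pi * K) R Z ⌊N⌋₊ hρ hρ' (fun k => (hy k).le) hκ.le hZ hR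
    (fun i => by
      have h1 : (j i : ℝ) + 1 ≤ K := by exact_mod_cast hj i
      have h2 : (0 : ℝ) ≤ j i := Nat.cast_nonneg _
      simp only [Int.cast_natCast, Nat.abs_cast]
      nlinarith)
    (by positivity) (by linarith)
    (fun i k t ht => by
      have h1 := An.norm_centre_sub_le (logTrunc (T k)) (T k) (eval_logTrunc (T k)) (r k)
        (j i : ℤ) (ε k) ρ (hr k) hρ' t ht
      simp only [Int.cast_natCast, Nat.abs_cast] at h1 ⊢
      refine h1.trans (le_trans ?_ (hε k))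
      have h2 : (j i : ℝ) ≤ K := by exact_mod_cast (hj i).le
      have h3 : 0 ≤ ε k := (norm_nonneg _).trans (hr k)
      nlinarith)
    (fun F hF => Nat.le_floor
      (An.card_le_simplex_prod y hy κ hκ Z hZ F fun a ha => (hF a ha).le))
  simp only [coeff_phi_monomial]
  refine h.trans (mul_le_mul_of_nonneg_left (Real.exp_le_exp.2 ?_) ?_)
  · have h1 : (⌊N⌋₊ : ℝ) ≤ N := Nat.floor_le hN0
    nlinarith
  · have hR0 : 0 < R := by linarith
    positivity

end Vale.Agent.P021Z
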