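import Vale.Agent.P021Z.An.Bound

/-! The analytic upper bound in the form with weights `w` and exponent `ν`. -/

namespace Vale.Agent.P021Z.An

open Finset Polynomial

theorem det_bound {ι : Type*} [Fintype ι] [DecidableEq ι] {m : ℕ} (Q : ι → Fin m → ℂ[X])
    (j : ι → ℤ) (s h : ι → ℕ) (α β : ι → Fin m → ℕ) (w : Fin m → ℝ) (ν ρ κ r₀ R Z : ℝ) (N : ℕ)
    (hρ : 0 < ρ) (hρ' : ρ ≤ 1 / 2) (hw : ∀ k, 0 ≤ ν * w k) (hκ : 0 ≤ κ) (hZ : 0 ≤ Z) (hR : 1 ≤ R)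
    (hr₀ : 0 ≤ r₀) (hj : ∀ i, 2 * Real.pi * |(j i : ℝ)| + 1 ≤ r₀)
    (hRr : 2 * r₀ * Real.exp κ ≤ R)
    (hQ : ∀ i k (t : ℂ), ‖t‖ = ρ →
      ‖(Q i k).eval t - (2 * Real.pi * Complex.I * j i + Complex.log (1 + t))‖ ≤
        Real.exp (-(ν * w k)))
    (hN : ∀ F : Finset ((Fin m → ℕ) × ℕ),
      (∀ a ∈ F, ν * (∑ k, w k * a.1 k) + κ * a.2 < Z) → F.card ≤ N) :
    ‖(Matrix.of fun i c => ((1 + X) ^ h c *
        ∏ k, C ((α c k).choose (β i k) : ℂ) * Q i k ^ (α c k - β i k)).coeff (s i)).det‖ ≤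
      ((Fintype.card ι).factorial : ℝ) * 2 ^ ((m + 1) * Fintype.card ι) *
        (∏ c, Real.exp (h c * R) * (8 * R) ^ (∑ k, α c k)) *
        (∏ i, (ρ ^ s i)⁻¹ * Real.exp (ν * ∑ k, w k * β i k)) *
        Real.exp (-(Z * ((Fintype.card ι : ℝ) - N))) := by
  have e : ∀ γ : Fin m → ℕ, ∑ k, ν * w k * γ k = ν * ∑ k, w k * γ k := fun γ => by
    rw [Finset.mul_sum]
    exact Finset.sum_congr rfl fun k _ => mul_assoc _ _ _
  have h1 := det_bound' Q j s h α β (fun k => ν * w k) ρ κ r₀ R Z N hρ hρ' hw hκ hZ hR hj hr₀ hRr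
    hQ (fun F hF => hN F fun a ha => by rw [← e]; exact hF a ha)
  simp only [e] at h1
  refine h1.trans (le_of_eq ?_)
  rw [← pow_mul]
  ring

end Vale.Agent.P021Z.An
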